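import Vale.Agent.P212Z.St

/-! The operators on `l^2(X) ⊗ l^2(ℕ)` attached to a Fredholm module, by matrix entries. -/

namespace Vale.Agent.P212H27

open Vale.Agent.P212Z.Kas

/-- The matrix entry `⟨b i, T (b j)⟩`. -/
noncomputable def ent {ι H : Type} [NormedAddCommGroup H] [InnerProductSpace ℂ H]
    (b : HilbertBasis ι ℂ H) (T : H →L[ℂ] H) (i j : ι) : ℂ := inner ℂ (b i) (T (b j))

variable {B : Type} [NonUnitalCStarAlgebra B] {X H K E : Type}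
  [NormedAddCommGroup H] [InnerProductSpace ℂ H] [CompleteSpace H]
  [NormedAddCommGroup K] [InnerProductSpace ℂ K] [CompleteSpace K]
  [NormedAddCommGroup E] [InnerProductSpace ℂ E] [CompleteSpace E]

/-- The operator `T` on `H = l^2(X) ⊗ l^2(ℕ)` has the matrix entries `M x y`, which are
operators on `K = l^2(ℕ)`. -/
def HasEnt (b : HilbertBasis (X × ℕ) ℂ H) (e : HilbertBasis ℕ ℂ K) (T : H →L[ℂ] H)
    (M : X → X → K →L[ℂ] K) : Prop :=
  ∀ x y m n, ent b T (x, m) (y, n) = ent e (M x y) m n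

open Classical in
/-- The operators on `l^2(X) ⊗ l^2(ℕ)` attached to a Fredholm module `c = (E, γ, ρ, F)`, the
square roots `φ x` of a partition of unity and an isometry `w : E → l^2(ℕ)`: `p₀` and `p₁` have
the entries `w ρ(φ_x φ_y) (1 ± γ)/2 w*`, and `Φ = 1 ⊗ w F w*`. -/
structure IsAmp (b : HilbertBasis (X × ℕ) ℂ H) (e : HilbertBasis ℕ ℂ K) (φ : X → B)
    (c : Fredholm B E) (w : E →L[ℂ] K) (p₀ p₁ Φ : H →L[ℂ] H) : Prop where
  iso : adj w ∘L w = 1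
  even : HasEnt b e p₀ fun x y =>
    w ∘L (c.ρ (φ x * φ y) * ((1 / 2 : ℂ) • (1 + c.γ))) ∘L adj w
  odd : HasEnt b e p₁ fun x y =>
    w ∘L (c.ρ (φ x * φ y) * ((1 / 2 : ℂ) • (1 - c.γ))) ∘L adj w
  op : HasEnt b e Φ fun x y => if x = y then w ∘L c.F ∘L adj w else 0

theorem isAmp_iff {b : HilbertBasis (X × ℕ) ℂ H} {e : HilbertBasis ℕ ℂ K} {φ : X → B}
    {c : Fredholm B E} {w : E →L[ℂ] K} {p₀ p₁ Φ : H →L[ℂ] H} :
    IsAmp b e φ c w p₀ p₁ Φ ↔ IsAmplification b e φ c w p₀ p₁ Φ :=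
  ⟨fun h => ⟨h.iso, h.even, h.odd, h.op⟩, fun h => ⟨h.iso, h.even, h.odd, h.op⟩⟩

end Vale.Agent.P212H27
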