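import Vale.Agent.P212H27.Amp
import Mathlib.Analysis.CStarAlgebra.Module.Defs
import Mathlib.Analysis.CStarAlgebra.ContinuousMap

/-! Kasparov modules over Hilbert C*-modules, homotopy of cycles, `KK_0(A, ℂ)` as the group of
cycles modulo homotopy, `KX_0(X)` and the coarse assembly map. -/

namespace Vale.Agent.P212T

open Vale.Agent.P212 Vale.Agent.P212Z Vale.Agent.P212Z.Kas Vale.Agent.P212H27 ZeroAtInfty

/-- The scalar product of a Hilbert space. -/
noncomputable def ip {H : Type} [NormedAddCommGroup H] [InnerProductSpace ℂ H] (u v : H) : ℂ :=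
  inner ℂ u v

/-- The bounded operators from `H` to `K`. -/
abbrev Op (H K : Type) [NormedAddCommGroup H] [InnerProductSpace ℂ H] [NormedAddCommGroup K]
    [InnerProductSpace ℂ K] : Type := H →L[ℂ] K

section Module

variable (B : Type) {E : Type} [NonUnitalCStarAlgebra B] [PartialOrder B] [NormedAddCommGroup E]
  [NormedSpace ℂ E] [SMul B E] [CStarModule B E]

/-- `T` is adjointable, with adjoint `S`. -/
def IsAdj (T S : E →L[ℂ] E) : Prop := ∀ x y : E, inner B (T x) y = inner B x (S y)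

/-- `T ∈ K(E)`: `T` is a norm limit of finite sums of the operators `θ_{x,y} z = ⟨y, z⟩ x`. -/
def IsCpt (T : E →L[ℂ] E) : Prop :=
  ∀ ε : ℝ, 0 < ε → ∃ (n : ℕ) (x y : Fin n → E), ∀ z : E,
    ‖T z - ∑ i, inner B (y i) z • x i‖ ≤ ε * ‖z‖

variable (E) in
/-- `E` is countably generated. -/
def CountablyGen : Prop :=
  ∃ x : ℕ → E, Dense (Submodule.span ℂ {z : E | ∃ (b : B) (n : ℕ), z = b • x n} : Set E)

variable (E) in
/-- A Kasparov `(A, B)`-module on the Hilbert `B`-module `E`: `E` is countably generated, `γ` is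
a grading operator, `φ` is a *-homomorphism into the even adjointable operators, `F` is odd with
adjoint `F'`, and `(F^2 - 1) φ(a)`, `(F - F*) φ(a)` and `[F, φ(a)]` are in `K(E)`. -/
structure KMod (A : Type) [NonUnitalCStarAlgebra A] : Type where
  γ : E →L[ℂ] E
  φ : A →ₙₐ[ℂ] (E →L[ℂ] E)
  F : E →L[ℂ] E
  F' : E →L[ℂ] E
  complete : CompleteSpace E
  gen : CountablyGen B E
  γ_adj : IsAdj B γ γ
  γ_sq : γ * γ = 1
  φ_adj : ∀ a, IsAdj B (φ a) (φ (star a))
  F_adj : IsAdj B F F'
  even : ∀ a, γ * φ a = φ a * γ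
  odd : γ * F = -(F * γ)
  sq : ∀ a, IsCpt B ((F * F - 1) * φ a)
  sa : ∀ a, IsCpt B ((F - F') * φ a)
  comm : ∀ a, IsCpt B (F * φ a - φ a * F)

variable {B} {A H : Type} [NonUnitalCStarAlgebra A] [NormedAddCommGroup H]
  [InnerProductSpace ℂ H] [CompleteSpace H]

/-- The linear map `π` identifies `H` with `E ⊗_ev ℂ`, the completion of `E` for the form
`ev ⟨x, y⟩`, and the operators of `c` are the induced ones. -/
structure IsEvalBy (m : KMod B E A) (ev : B → ℂ) (c : Fredholm A H) (π : E →ₗ[ℂ] H) : Prop where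
  dense : DenseRange π
  inn : ∀ x y : E, ip (π x) (π y) = ev (inner B x y)
  γ : ∀ x, c.γ (π x) = π (m.γ x)
  ρ : ∀ a x, c.ρ a (π x) = π (m.φ a x)
  F : ∀ x, c.F (π x) = π (m.F x)

/-- `c` is the evaluation of `m` at the character `ev` of `B`. -/
def IsEval (m : KMod B E A) (ev : B → ℂ) (c : Fredholm A H) : Prop := ∃ π, IsEvalBy m ev c π

/-- The evaluation of `m` at `ev` exists and is unique up to unitary equivalence. -/
def HasEval (m : KMod B E A) (ev : B → ℂ) : Prop :=
  (∃ (H : Type) (_ : NormedAddCommGroup H) (_ : InnerProductSpace ℂ H) (_ : CompleteSpace H)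
    (c : Fredholm A H), IsEval m ev c) ∧
  ∀ (H K : Type) [NormedAddCommGroup H] [InnerProductSpace ℂ H] [CompleteSpace H]
    [NormedAddCommGroup K] [InnerProductSpace ℂ K] [CompleteSpace K] (a : Fredholm A H)
    (b : Fredholm A K), IsEval m ev a → IsEval m ev b → UnitEq a b

variable (B) in
/-- `a` and `b` are the evaluations at `e₀` and `e₁` of one Kasparov `(A, B)`-module. -/
inductive Joined (e₀ e₁ : B → ℂ) : Cyc A → Cyc A → Prop
  | mk {H K E : Type} [NormedAddCommGroup H] [InnerProductSpace ℂ H] [CompleteSpace H]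
      [NormedAddCommGroup K] [InnerProductSpace ℂ K] [CompleteSpace K] [NormedAddCommGroup E]
      [NormedSpace ℂ E] [SMul B E] [CStarModule B E]
      (a : Fredholm A H) (b : Fredholm A K) (m : KMod B E A) :
      IsEval m e₀ a → IsEval m e₁ b → Joined e₀ e₁ ⟨H, a⟩ ⟨K, b⟩

variable (B A) in
/-- Every Kasparov `(A, B)`-module has a unique evaluation at `ev`. -/
def AllEval (ev : B → ℂ) : Prop :=
  ∀ (E : Type) [NormedAddCommGroup E] [NormedSpace ℂ E] [SMul B E] [CStarModule B E]
    (m : KMod B E A), HasEval m ev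

end Module

variable {A B : Type} [NonUnitalCStarAlgebra A] [NonUnitalCStarAlgebra B]

open scoped ComplexOrder in
/-- Homotopy of cycles: `a` and `b` are the evaluations at `0` and `1` of a Kasparov
`(A, C([0,1]))`-module. -/
def Htpy (a b : Cyc A) : Prop :=
  Joined C(unitInterval, ℂ) (fun f => f 0) (fun f => f 1) a b

variable (A) in
open scoped ComplexOrder in
/-- The evaluations of a Kasparov `(A, C([0,1]))`-module exist and are unique up to unitary
equivalence. -/
def EvalWellDefined : Prop :=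
  ∀ t : unitInterval, AllEval C(unitInterval, ℂ) A fun f => f t

variable (A) in
/-- Kasparov's group `KK_0(A, ℂ)`: cycles modulo homotopy, with the direct sum as addition. -/
abbrev KK : Type 1 := Pres (Htpy (A := A)) Cyc.IsSum

theorem comap_joined {D : Type} [NonUnitalCStarAlgebra D] [PartialOrder D] {e₀ e₁ : D → ℂ}
    (ψ : B →⋆ₙₐ[ℂ] A) :
    ∀ a b : Cyc A, Joined D e₀ e₁ a b → Joined D e₀ e₁ (a.comap ψ) (b.comap ψ) := by
  rintro _ _ ⟨a, b, m, ⟨π, h⟩, π', h'⟩
  exact .mk (a.comap ψ) (b.comap ψ)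
    ⟨m.γ, m.φ.comp (ψ : B →ₙₐ[ℂ] A), m.F, m.F', m.complete, m.gen, m.γ_adj, m.γ_sq,
      fun a => (congrArg (fun z => IsAdj _ (m.φ (ψ a)) (m.φ z)) (map_star ψ a)).mpr
        (m.φ_adj (ψ a)),
      m.F_adj, fun a => m.even (ψ a), m.odd, fun a => m.sq (ψ a), fun a => m.sa (ψ a),
      fun a => m.comm (ψ a)⟩
    ⟨π, h.1, h.2, h.3, fun x => h.4 (ψ x), h.5⟩ ⟨π', h'.1, h'.2, h'.3, fun x => h'.4 (ψ x), h'.5⟩

open scoped ComplexOrder in
theorem comap_htpy (ψ : B →⋆ₙₐ[ℂ] A) :
    ∀ a b : Cyc A, Htpy a b → Htpy (a.comap ψ) (b.comap ψ) :=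
  fun a b h => comap_joined ψ a b h

/-- Contravariant functoriality of `KK_0(A, ℂ)` in `A`. -/
noncomputable def KK.comap (ψ : B →⋆ₙₐ[ℂ] A) : KK A →+ KK B :=
  Pres.map (Cyc.comap ψ) (comap_htpy ψ) (Cyc.comap_isSum ψ)

/-- The coarse K-homology group `KX_0(X) = lim_r KK_0(C_0(P_r(X)), ℂ)`. -/
abbrev KX0 (X : Type) [MetricSpace X] [BddGeometry X] : Type 1 :=
  AddCommGroup.DirectLimit (fun r : ℝ => KK C₀(Rips X r, ℂ))
    (fun _ _ h => KK.comap (c0Comap (ripsInclCo h)))

/-- The class in `KX_0(X)` of a cycle over `C_0(P_r(X))`. -/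
noncomputable def KX0.cls (X : Type) [MetricSpace X] [BddGeometry X] (r : ℝ)
    (c : Cyc C₀(Rips X r, ℂ)) : KX0 X :=
  limOf (G := fun r : ℝ => KK C₀(Rips X r, ℂ))
    (fun _ _ h => KK.comap (c0Comap (ripsInclCo h))) r (Pres.of _ _ c)

variable {X H : Type} [NormedAddCommGroup H] [InnerProductSpace ℂ H] [CompleteSpace H]

/-- `z` is the index of the operators attached to `c` and `φ`: they exist, and for every choice
the index of `p₁ Φ p₀`, that is, of `∑_x ρ(φ_x) F ρ(φ_x)`, is `z`. -/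
def HasIndex {E : Type} [NormedAddCommGroup E] [InnerProductSpace ℂ E] [CompleteSpace E]
    (b : HilbertBasis (X × ℕ) ℂ H) (i : (H →L[ℂ] H) → A) (φ : X → B) (c : Fredholm B E)
    (z : KC A) : Prop :=
  ∀ (K : Type) [NormedAddCommGroup K] [InnerProductSpace ℂ K] [CompleteSpace K]
    (e : HilbertBasis ℕ ℂ K), (∃ (w : Op E K) (p₀ p₁ Φ : Op H H), IsAmp b e φ c w p₀ p₁ Φ) ∧
    ∀ (w : Op E K) (p₀ p₁ Φ : Op H H), IsAmp b e φ c w p₀ p₁ Φ → IsIndex i p₀ p₁ Φ z

/-- `ind` maps every cycle to its index. -/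
def IsIndexMap (b : HilbertBasis (X × ℕ) ℂ H) (i : (H →L[ℂ] H) → A) (φ : X → B)
    (ind : Cyc B → KC A) : Prop :=
  ∀ (E : Type) [NormedAddCommGroup E] [InnerProductSpace ℂ E] [CompleteSpace E]
    (c : Fredholm B E), HasIndex b i φ c (ind ⟨E, c⟩)

variable {G : Type 1} {C : ℝ → Type} [∀ r, NonUnitalCStarAlgebra (C r)]

/-- `μ` is the coarse assembly map for the completion `i : ℂ[X] → A` on the group `G` in which
`cls r c` is the class of the cycle `c` over `C r = C_0(P_r(X))`: the image of this class is the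
index of the finite propagation operator `∑_x ρ(φ_x) F ρ(φ_x)`, where `φ_x = √t_x` and the `t_x`
are the barycentric coordinates. -/
def IsAssembly (φ : ∀ r, X → C r) (cls : ∀ r, Cyc (C r) → G)
    (b : HilbertBasis (X × ℕ) ℂ H) (i : (H →L[ℂ] H) → A) (μ : G → KC A) : Prop :=
  ∀ r : ℝ, IsIndexMap b i (φ r) fun c => μ (cls r c)

variable [AddCommGroup G]

/-- There is exactly one homomorphism with the property `P`, it is not rationally injective, and
its kernel contains a linearly independent family indexed by the reals. -/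
def Fails {K : Type} [AddCommGroup K] (P : (G → K) → Prop) : Prop :=
  ∃ μ : G →+ K, P μ ∧ (∀ μ' : G →+ K, P μ' → μ' = μ) ∧ ¬ RatInj μ ∧ BigKer μ

variable [MetricSpace X]

/-- This holds for the assembly maps to the maximal and to the reduced Roe algebra of `X`. -/
def RoeFails (φ : ∀ r, X → C r) (cls : ∀ r, Cyc (C r) → G) : Prop :=
  ∀ (H A : Type) [NormedAddCommGroup H] [InnerProductSpace ℂ H] [CompleteSpace H]
    [NonUnitalCStarAlgebra A] (b : HilbertBasis (X × ℕ) ℂ H) (i : Op H H → A),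
    IsMaxRoe b i ∨ IsReducedRoe b i → Fails (IsAssembly φ cls b i)

end Vale.Agent.P212T
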